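import Vale.Agent.Lib.P028.FullMeasure

/-!
Inhomogeneous Erdos-Vaaler theorem for every shift.
-/

open Finset MeasureTheory Filter

namespace Vale.Agent.P028

/-- the truncated function -/
noncomputable def tr (ψ : ℕ → ℝ) (q : ℕ) : ℝ := min (ψ q) (1 / q)

lemma tr_nonneg (ψ : ℕ → ℝ) (hψ : ∀ q, 0 ≤ ψ q) (q : ℕ) : 0 ≤ tr ψ q :=
  le_min (hψ q) (by positivity)

lemma tr_mul_le (ψ : ℕ → ℝ) (q : ℕ) : (q : ℝ) * tr ψ q ≤ 1 := by
  unfold tr
  rcases Nat.eq_zero_or_pos q with h | h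
  · subst h; simp
  · have hq : (0 : ℝ) < q := by exact_mod_cast h
    calc (q : ℝ) * min (ψ q) (1 / q) ≤ q * (1 / q) := by
          gcongr; exact min_le_right _ _
      _ = 1 := by field_simp

lemma div_of_not_summable (γ : ℝ) (ψ : ℕ → ℝ) (hψ : ∀ q, 0 ≤ ψ q)
    (hdiv : ¬ Summable (fun q : ℕ => (Nat.totient q : ℝ) / q * tr ψ q)) (X : ℕ) (T : ℝ) :
    ∃ Q : Finset ℕ, (∀ q ∈ Q, X ≤ q) ∧ T ≤ ∑ q ∈ Q, kap γ q * tr ψ q := by
  set f : ℕ → ℝ := fun q => (Nat.totient q : ℝ) / q * tr ψ q with hf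
  have hf0 : ∀ q, 0 ≤ f q := fun q => mul_nonneg (by positivity) (tr_nonneg ψ hψ q)
  rw [not_summable_iff_tendsto_nat_atTop_of_nonneg hf0] at hdiv
  obtain ⟨n, hn1, hn2⟩ := ((tendsto_atTop.mp hdiv (T + ∑ i ∈ Finset.range X, f i)).and
    (eventually_ge_atTop X)).exists
  refine ⟨Ico X n, fun q hq => (mem_Ico.mp hq).1, ?_⟩
  have h1 : ∑ i ∈ Finset.range n, f i = ∑ i ∈ Finset.range X, f i + ∑ i ∈ Ico X n, f i :=
    (Finset.sum_range_add_sum_Ico f hn2).symm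
  calc T ≤ ∑ i ∈ Ico X n, f i := by linarith
    _ ≤ ∑ q ∈ Ico X n, kap γ q * tr ψ q := by
        refine Finset.sum_le_sum fun q _ => ?_
        rcases Nat.eq_zero_or_pos q with h | h
        · subst h
          have := mul_nonneg (kap_pos γ 0).le (tr_nonneg ψ hψ 0)
          simpa [hf] using this
        · have := kap_ge_totient γ h
          have := tr_nonneg ψ hψ q
          simp only [hf]
          gcongr

/-- the set of good moduli -/
def WW (γ : ℝ) (ψ : ℕ → ℝ) (x : ℝ) : Set ℕ :=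
  {q : ℕ | 0 < q ∧ ∃ a : ℤ, |(q : ℝ) * x - a - γ| < ψ q}

lemma WW_add (γ : ℝ) (ψ : ℕ → ℝ) (x : ℝ) (n : ℤ) : WW γ ψ (x + n) = WW γ ψ x := by
  ext q
  simp only [WW, Set.mem_ofPred_eq]
  constructor
  · rintro ⟨h0, a, ha⟩
    refine ⟨h0, a - q * n, ?_⟩
    have e : (q : ℝ) * x - ((a - q * n : ℤ) : ℝ) - γ = (q : ℝ) * (x + n) - a - γ := by
      push_cast; ring
    rw [e]; exact ha
  · rintro ⟨h0, a, ha⟩
    refine ⟨h0, a + q * n, ?_⟩
    have e : (q : ℝ) * (x + n) - ((a + q * n : ℤ) : ℝ) - γ = (q : ℝ) * x - a - γ := by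
      push_cast; ring
    rw [e]; exact ha

theorem full_measure (γ : ℝ) (ψ : ℕ → ℝ) (hψ : ∀ q, 0 ≤ ψ q)
    (hdiv : ¬ Summable (fun q : ℕ => (Nat.totient q : ℝ) / q * min (ψ q) (1 / q))) :
    ∀ᵐ x : ℝ, (WW γ ψ x).Infinite := by
  have hG : ∀ X : ℕ, volume (GG γ (tr ψ) (X + 1)) = 0 := fun X =>
    GG_null γ (tr ψ) (tr_nonneg ψ hψ) (tr_mul_le ψ) (div_of_not_summable γ ψ hψ hdiv) (X + 1)
      (Nat.succ_pos X)
  set N : Set ℝ := {x | x ∈ Set.Ico (0 : ℝ) 1 ∧ ¬ (WW γ ψ x).Infinite} with hN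
  have hN0 : volume N = 0 := by
    apply measure_mono_null (t := ⋃ X : ℕ, GG γ (tr ψ) (X + 1)) _ (measure_iUnion_null hG)
    rintro x ⟨hx01, hx⟩
    by_contra hcon
    apply hx
    rw [Set.mem_iUnion, not_exists] at hcon
    refine Set.infinite_of_forall_exists_gt fun X => ?_
    have h := hcon X
    unfold GG at h
    rw [Set.mem_ofPred_eq, not_and] at h
    have h2 := h hx01
    push Not at h2
    obtain ⟨q, hq, hxq⟩ := h2
    refine ⟨q, ⟨by omega, ?_⟩, by omega⟩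
    obtain ⟨-, a, -, ha⟩ := hxq
    refine ⟨a, ?_⟩
    simp only [bl, Set.mem_ofPred_eq] at ha
    exact lt_of_lt_of_le ha (min_le_left _ _)
  rw [ae_iff]
  apply measure_mono_null (t := ⋃ n : ℤ, (fun x : ℝ => x + n) ⁻¹' N)
  · intro x hx
    rw [Set.mem_ofPred_eq] at hx
    rw [Set.mem_iUnion]
    refine ⟨-⌊x⌋, ?_⟩
    rw [Set.mem_preimage, hN, Set.mem_ofPred_eq]
    rw [WW_add γ ψ x (-⌊x⌋)]
    refine ⟨?_, hx⟩
    push_cast
    constructor
    · have := Int.floor_le x; linarith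
    · have := Int.lt_floor_add_one x; linarith
  · apply measure_iUnion_null
    intro n
    rw [measure_preimage_add_right]
    exact hN0

end Vale.Agent.P028

namespace Vale.Agent.Results.P028.ErdosVaaler

/-- Inhomogeneous Erdos-Vaaler theorem, for every real shift. -/
theorem result (γ : ℝ) (ψ : ℕ → ℝ) (hψ : ∀ q, 0 ≤ ψ q)
    (hdiv : ¬ Summable (fun q : ℕ => (Nat.totient q : ℝ) / q * min (ψ q) (1 / q))) :
    ∀ᵐ x : ℝ, {q : ℕ | 0 < q ∧ ∃ a : ℤ, |(q : ℝ) * x - a - γ| < ψ q}.Infinite :=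
  Vale.Agent.P028.full_measure γ ψ hψ hdiv

end Vale.Agent.Results.P028.ErdosVaaler
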