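import Vale.Agent.Lib.P028.E.SM
import Vale.Agent.Lib.P028.E.Full

/-!
# Weak inhomogeneous Duffin-Schaeffer for every shift and every `psi(q) = O(q^(-eps))`
-/

open Finset MeasureTheory

namespace Vale.Agent.Results.P028.DuffinSchaefferPower

/-- For every real shift `γ`, every `ε > 0` and every `ψ ≥ 0` (not assumed monotone): if
`Σ φ(q)/q · min (ψ(q), q^(-ε))` diverges, then for almost every real `x` there are infinitely
many `q ≥ 1` such that `|q x - a - γ| < ψ(q)` for some integer `a`. -/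
theorem result (ε : ℝ) (hε : 0 < ε) (γ : ℝ) (ψ : ℕ → ℝ) (hψ : ∀ q, 0 ≤ ψ q)
    (hdiv : ¬ Summable (fun q : ℕ => (Nat.totient q : ℝ) / q * min (ψ q) ((q : ℝ) ^ (-ε)))) :
    ∀ᵐ x : ℝ, {q : ℕ | 0 < q ∧ ∃ a : ℤ, |(q : ℝ) * x - a - γ| < ψ q}.Infinite := by
  have hm0 : 0 < min ε (1 / 2) := lt_min hε (by norm_num)
  have hm1 : min ε (1 / 2) < 1 := lt_of_le_of_lt (min_le_right _ _) (by norm_num)
  refine Vale.Agent.P028E.full_of_secondMoment (min ε (1 / 2)) hm0 hm1
    (Vale.Agent.P028E.secondMoment (min ε (1 / 2)) hm0 hm1) γ ψ hψ ?_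
  intro hs
  apply hdiv
  refine Summable.of_nonneg_of_le (fun q => ?_) (fun q => ?_) hs
  · exact mul_nonneg (by positivity) (le_min (hψ q) (by positivity))
  · refine mul_le_mul_of_nonneg_left (min_le_min le_rfl ?_) (by positivity)
    rcases Nat.eq_zero_or_pos q with h | h
    · subst h
      rw [Nat.cast_zero, Real.zero_rpow (by linarith), Real.zero_rpow (by linarith)]
    · exact Real.rpow_le_rpow_of_exponent_le (by exact_mod_cast h)
        (neg_le_neg (min_le_left _ _))

end Vale.Agent.Results.P028.DuffinSchaefferPower
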