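import Vale.Agent.Lib.P028.Thin

/-!
# The weak inhomogeneous Duffin-Schaeffer conjecture: power range and what remains
-/

open MeasureTheory
open scoped NNReal ENNReal
open Vale.Agent.Lib.P028.Thin

namespace Vale.Agent.Results.P028.WeakDSPowerThin

/-- For every real shift `γ`.
(1) If `ψ q ≤ C q ^ (-ε)` for all `q`, for some `ε > 0` and `C`, then divergence of
`∑ φ(q) / q * ψ q` implies that `W γ ψ` has full measure.
(2) More generally, `W γ ψ` has full measure if `∑ φ(q) / q * min (ψ q) (q ^ (-ε))` diverges for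
some `ε > 0`.
(3) What remains of the conjecture for `γ`: the implication for all `ψ` is equivalent to the
implication for those `ψ` such that for every `ε > 0`, `ψ q > q ^ (-ε)` for all but finitely many
`q` in the support of `ψ`, and `∑ q ^ (-ε)` over the support of `ψ` is finite. -/
theorem result (γ : ℝ) :
    (∀ ψ : ℕ+ → ℝ≥0,
      (∃ ε : ℝ, 0 < ε ∧ ∃ C : ℝ, ∀ q : ℕ+, (ψ q : ℝ) ≤ C * ((q : ℕ) : ℝ) ^ (-ε)) →
      wsum ψ = ∞ → volume (W γ ψ)ᶜ = 0) ∧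
    (∀ ψ : ℕ+ → ℝ≥0,
      (∃ ε : ℝ, 0 < ε ∧ wsum (fun q => min (ψ q) (((q : ℕ) : ℝ≥0) ^ (-ε))) = ∞) →
      volume (W γ ψ)ᶜ = 0) ∧
    ((∀ ψ : ℕ+ → ℝ≥0, wsum ψ = ∞ → volume (W γ ψ)ᶜ = 0) ↔
      ∀ ψ : ℕ+ → ℝ≥0, (∀ ε : ℝ, 0 < ε →
          {q : ℕ+ | 0 < ψ q ∧ ψ q ≤ ((q : ℕ) : ℝ≥0) ^ (-ε)}.Finite ∧
          ∑' q : {q : ℕ+ // 0 < ψ q}, (((q : ℕ+) : ℕ) : ℝ≥0∞) ^ (-ε) < ∞) →
        wsum ψ = ∞ → volume (W γ ψ)ᶜ = 0) := by
  refine ⟨?_, ?_, fun H ψ _ h => H ψ h, part3 γ⟩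
  · rintro ψ ⟨ε, hε, C, hC⟩ h
    exact part1 γ ψ ε hε C hC h
  · rintro ψ ⟨ε, hε, h⟩
    exact part2 γ ψ ε hε h

end Vale.Agent.Results.P028.WeakDSPowerThin
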